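import Mathlib

/-!
P249: importance sampling of coordinates with a derandomised Chernoff bound
(independent backup of the pool lemma `sampling`).
-/

namespace Vale.Agent.Lib.P249

open Finset

/-- chord bound for the exponential on the unit interval -/
theorem samp_exp_chord (θ y : ℝ) (hy0 : 0 ≤ y) (hy1 : y ≤ 1) :
    Real.exp (θ * y) ≤ 1 + (Real.exp θ - 1) * y := by
  have h := convexOn_exp.2 (Set.mem_univ (0 : ℝ)) (Set.mem_univ θ) (sub_nonneg.mpr hy1) hy0
    (by ring : 1 - y + y = 1)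
  simp only [smul_eq_mul, mul_zero, zero_add, Real.exp_zero, mul_one] at h
  have e : θ * y = y * θ := mul_comm _ _
  rw [e]
  linarith

/-- bound for the moment generating function of a `[0,1]`-valued variable of mean `1/S` -/
theorem samp_mgf {K : Type*} [Fintype K] (P Y : K → ℝ) (S τ : ℝ)
    (hP : ∀ k, 0 ≤ P k) (hP1 : ∑ k, P k = 1) (hY0 : ∀ k, 0 ≤ Y k) (hY1 : ∀ k, Y k ≤ 1)
    (hmean : ∑ k, P k * Y k = 1 / S) :
    ∑ k, P k * Real.exp (τ * Y k) ≤ Real.exp ((Real.exp τ - 1) / S) := by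
  have h1 : ∑ k, P k * Real.exp (τ * Y k) ≤ ∑ k, P k * (1 + (Real.exp τ - 1) * Y k) :=
    Finset.sum_le_sum (fun k _ =>
      mul_le_mul_of_nonneg_left (samp_exp_chord τ (Y k) (hY0 k) (hY1 k)) (hP k))
  have h2 : ∑ k, P k * (1 + (Real.exp τ - 1) * Y k) = 1 + (Real.exp τ - 1) / S := by
    have h : ∀ k, P k * (1 + (Real.exp τ - 1) * Y k)
        = P k + (Real.exp τ - 1) * (P k * Y k) := fun k => by ring
    simp only [h]
    rw [Finset.sum_add_distrib, ← Finset.mul_sum, hP1, hmean]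
    ring
  have h3 := Real.add_one_le_exp ((Real.exp τ - 1) / S)
  linarith

/-- the tilted sum over all index maps factorises -/
theorem samp_tilt {K : Type*} [Fintype K] (P Y : K → ℝ) (d : ℕ) (τ c : ℝ) :
    ∑ κ : Fin d → K, (∏ l, P (κ l)) * Real.exp (τ * ∑ l, Y (κ l) + c)
      = Real.exp c * (∑ k, P k * Real.exp (τ * Y k)) ^ d := by
  classical
  rw [Fintype.sum_pow, Finset.mul_sum]
  apply Finset.sum_congr rfl
  intro κ _
  rw [Real.exp_add, Finset.mul_sum, Real.exp_sum, Finset.prod_mul_distrib]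
  ring

/-- the tilted sum is small -/
theorem samp_tail {K : Type*} [Fintype K] (P Y : K → ℝ) (S : ℝ) (d : ℕ) (τ c b : ℝ)
    (hP : ∀ k, 0 ≤ P k) (hP1 : ∑ k, P k = 1) (hY0 : ∀ k, 0 ≤ Y k) (hY1 : ∀ k, Y k ≤ 1)
    (hmean : ∑ k, P k * Y k = 1 / S)
    (hb : c + (d : ℝ) * ((Real.exp τ - 1) / S) ≤ b) :
    ∑ κ : Fin d → K, (∏ l, P (κ l)) * Real.exp (τ * ∑ l, Y (κ l) + c) ≤ Real.exp b := by
  rw [samp_tilt]
  have hZ := samp_mgf P Y S τ hP hP1 hY0 hY1 hmean
  have hZ0 : 0 ≤ ∑ k, P k * Real.exp (τ * Y k) :=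
    Finset.sum_nonneg (fun k _ => mul_nonneg (hP k) (Real.exp_pos _).le)
  calc Real.exp c * (∑ k, P k * Real.exp (τ * Y k)) ^ d
      ≤ Real.exp c * (Real.exp ((Real.exp τ - 1) / S)) ^ d :=
        mul_le_mul_of_nonneg_left (pow_le_pow_left₀ hZ0 hZ d) (Real.exp_pos c).le
    _ = Real.exp (c + (d : ℝ) * ((Real.exp τ - 1) / S)) := by
        rw [← Real.exp_nat_mul, ← Real.exp_add]
    _ ≤ Real.exp b := Real.exp_le_exp.mpr hb

/-- Importance sampling of coordinates (derandomised Chernoff bound). -/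
theorem sampling {K F : Type*} [Fintype K] [Fintype F]
    (w : K → F → ℝ) (s : K → ℝ) (v : F → ℝ) (S : ℝ)
    (hw : ∀ k f, 0 ≤ w k f) (hv : ∀ f, v f = ∑ k, w k f)
    (hs0 : ∀ k, 0 ≤ s k) (hs : ∀ k f, w k f ≤ s k * v f)
    (hS : S = ∑ k, s k) (hSpos : 0 < S)
    (ε : ℝ) (hε : 0 < ε) (hε1 : ε ≤ 1)
    (d : ℕ) (hd : 8 * S * Real.log (2 * (Fintype.card F : ℝ) + 1) ≤ ε ^ 2 * d) :
    ∃ κ : Fin d → K, ∀ f,
      (1 - ε) * v f ≤ ∑ l, w (κ l) f * (S / ((d : ℝ) * s (κ l))) ∧
      ∑ l, w (κ l) f * (S / ((d : ℝ) * s (κ l))) ≤ (1 + ε) * v f := by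
  classical
  have hv0 : ∀ f, 0 ≤ v f := fun f => by
    rw [hv f]; exact Finset.sum_nonneg (fun k _ => hw k f)
  have hw0 : ∀ k f, s k = 0 → w k f = 0 := fun k f h0 =>
    le_antisymm (by have := hs k f; rw [h0, zero_mul] at this; exact this) (hw k f)
  have hwv : ∀ k f, v f = 0 → w k f = 0 := fun k f h0 =>
    le_antisymm (by have := hs k f; rw [h0, mul_zero] at this; exact this) (hw k f)
  by_contra hcon
  push Not at hcon
  -- `K` is nonempty
  have hK : Nonempty K := by
    by_contra h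
    rw [not_nonempty_iff] at h
    rw [hS, Finset.univ_eq_empty, Finset.sum_empty] at hSpos
    exact lt_irrefl _ hSpos
  obtain ⟨k0⟩ := hK
  -- `F` is nonempty
  obtain ⟨f0, _⟩ := hcon (fun _ => k0)
  have hcard : (1 : ℝ) ≤ (Fintype.card F : ℝ) := by
    have : 0 < Fintype.card F := Fintype.card_pos_iff.mpr ⟨f0⟩
    exact_mod_cast this
  have hlog : 0 < Real.log (2 * (Fintype.card F : ℝ) + 1) := Real.log_pos (by linarith)
  -- `d` is positive
  have hdpos : 0 < (d : ℝ) := by
    by_contra h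
    have hd0 : (d : ℝ) = 0 := le_antisymm (not_lt.mp h) (Nat.cast_nonneg d)
    rw [hd0, mul_zero] at hd
    have : 0 < 8 * S * Real.log (2 * (Fintype.card F : ℝ) + 1) := by positivity
    linarith
  -- the probability weights and the normalised variables
  set P : K → ℝ := fun k => s k / S with hPdef
  set Y : F → K → ℝ := fun f k => w k f / (s k * v f) with hYdef
  set D : ℝ := (d : ℝ) / S with hDdef
  have hDpos : 0 < D := div_pos hdpos hSpos
  have hP0 : ∀ k, 0 ≤ P k := fun k => div_nonneg (hs0 k) hSpos.le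
  have hP1 : ∑ k, P k = 1 := by
    simp only [hPdef]
    rw [← Finset.sum_div, ← hS]
    exact div_self hSpos.ne'
  have hY0 : ∀ f k, 0 ≤ Y f k := fun f k =>
    div_nonneg (hw k f) (mul_nonneg (hs0 k) (hv0 f))
  have hY1 : ∀ f k, Y f k ≤ 1 := fun f k =>
    div_le_one_of_le₀ (hs k f) (mul_nonneg (hs0 k) (hv0 f))
  have hmean : ∀ f, 0 < v f → ∑ k, P k * Y f k = 1 / S := by
    intro f hf
    have h1 : ∀ k, P k * Y f k = w k f / (S * v f) := by
      intro k
      simp only [hPdef, hYdef]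
      by_cases hk : s k = 0
      · rw [hw0 k f hk, hk]; simp
      · have hvf : v f ≠ 0 := hf.ne'
        have hS0 : S ≠ 0 := hSpos.ne'
        field_simp
    simp only [h1]
    rw [← Finset.sum_div, ← hv f]
    have hvf : v f ≠ 0 := hf.ne'
    have hS0 : S ≠ 0 := hSpos.ne'
    field_simp
  have hpi : ∑ κ : Fin d → K, ∏ l, P (κ l) = 1 := by
    rw [← Fintype.sum_pow, hP1, one_pow]
  -- the two tilts
  set c1 : ℝ := -(ε / 4) * (1 + ε) * D with hc1
  set c2 : ℝ := (ε / 2) * (1 - ε) * D with hc2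
  set b : ℝ := -(ε ^ 2 / 8) * D with hb
  -- every index map is bad for some `f`, which costs at least one
  have hbad : ∀ κ : Fin d → K, 1 ≤ ∑ f ∈ univ.filter (fun f => 0 < v f),
      (Real.exp (ε / 4 * ∑ l, Y f (κ l) + c1) + Real.exp (-(ε / 2) * ∑ l, Y f (κ l) + c2)) := by
    intro κ
    obtain ⟨f, hf⟩ := hcon κ
    have hvf : 0 < v f := by
      by_contra h
      have hv00 : v f = 0 := le_antisymm (not_lt.mp h) (hv0 f)
      have hX : ∑ l, w (κ l) f * (S / ((d : ℝ) * s (κ l))) = 0 :=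
        Finset.sum_eq_zero (fun l _ => by rw [hwv (κ l) f hv00, zero_mul])
      rw [hX, hv00] at hf
      have := hf (by simp)
      simp at this
    have hX : ∑ l, w (κ l) f * (S / ((d : ℝ) * s (κ l))) = (v f / D) * ∑ l, Y f (κ l) := by
      rw [Finset.mul_sum]
      apply Finset.sum_congr rfl
      intro l _
      simp only [hYdef, hDdef]
      by_cases hk : s (κ l) = 0
      · rw [hw0 (κ l) f hk, hk]; simp
      · have hvf' : v f ≠ 0 := hvf.ne'
        have hS0 : S ≠ 0 := hSpos.ne'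
        have hd0 : (d : ℝ) ≠ 0 := hdpos.ne'
        field_simp
    rw [hX] at hf
    have hcoef : 0 < v f / D := div_pos hvf hDpos
    have hterm : 1 ≤ Real.exp (ε / 4 * ∑ l, Y f (κ l) + c1)
        + Real.exp (-(ε / 2) * ∑ l, Y f (κ l) + c2) := by
      rcases lt_or_ge ((1 + ε) * D) (∑ l, Y f (κ l)) with hT | hT
      · have h1 : 1 ≤ Real.exp (ε / 4 * ∑ l, Y f (κ l) + c1) := by
          apply Real.one_le_exp
          simp only [hc1]
          nlinarith
        have h2 := Real.exp_pos (-(ε / 2) * ∑ l, Y f (κ l) + c2)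
        linarith
      · have hup : (v f / D) * ∑ l, Y f (κ l) ≤ (1 + ε) * v f := by
          have := mul_le_mul_of_nonneg_left hT hcoef.le
          have e : v f / D * ((1 + ε) * D) = (1 + ε) * v f := by
            field_simp
          linarith
        have hlow : (v f / D) * ∑ l, Y f (κ l) < (1 - ε) * v f := by
          by_contra h
          exact absurd (hf (not_lt.mp h)) (not_lt.mpr hup)
        have hT2 : ∑ l, Y f (κ l) < (1 - ε) * D := by
          by_contra h
          have h' := mul_le_mul_of_nonneg_left (not_lt.mp h) hcoef.le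
          have e : v f / D * ((1 - ε) * D) = (1 - ε) * v f := by
            field_simp
          linarith
        have h2 : 1 ≤ Real.exp (-(ε / 2) * ∑ l, Y f (κ l) + c2) := by
          apply Real.one_le_exp
          simp only [hc2]
          nlinarith
        have h1 := Real.exp_pos (ε / 4 * ∑ l, Y f (κ l) + c1)
        linarith
    have hmem : f ∈ univ.filter (fun f => 0 < v f) := by
      simp [hvf]
    have hsingle := Finset.single_le_sum
      (f := fun f => Real.exp (ε / 4 * ∑ l, Y f (κ l) + c1)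
        + Real.exp (-(ε / 2) * ∑ l, Y f (κ l) + c2))
      (fun i _ => by positivity) hmem
    exact le_trans hterm hsingle
  -- the two tail sums
  have hE1 : ε / 4 ≤ 1 := by linarith
  have hexp1 : Real.exp (ε / 4) - 1 - ε / 4 ≤ (ε / 4) ^ 2 :=
    le_trans (le_abs_self _) (Real.abs_exp_sub_one_sub_id_le (by rw [abs_le]; constructor <;> linarith))
  have hexp2 : Real.exp (-(ε / 2)) - 1 - -(ε / 2) ≤ (-(ε / 2)) ^ 2 :=
    le_trans (le_abs_self _) (Real.abs_exp_sub_one_sub_id_le (by rw [abs_le]; constructor <;> linarith))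
  have hdS : ∀ x : ℝ, (d : ℝ) * (x / S) = D * x := fun x => by
    simp only [hDdef]; field_simp
  have htail1 : ∀ f, 0 < v f →
      ∑ κ : Fin d → K, (∏ l, P (κ l)) * Real.exp (ε / 4 * ∑ l, Y f (κ l) + c1) ≤ Real.exp b := by
    intro f hf
    apply samp_tail P (Y f) S d (ε / 4) c1 b hP0 hP1 (hY0 f) (hY1 f) (hmean f hf)
    rw [hdS]
    simp only [hc1, hb]
    nlinarith
  have htail2 : ∀ f, 0 < v f →
      ∑ κ : Fin d → K, (∏ l, P (κ l)) * Real.exp (-(ε / 2) * ∑ l, Y f (κ l) + c2)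
        ≤ Real.exp b := by
    intro f hf
    apply samp_tail P (Y f) S d (-(ε / 2)) c2 b hP0 hP1 (hY0 f) (hY1 f) (hmean f hf)
    rw [hdS]
    simp only [hc2, hb]
    nlinarith
  -- summing up
  have hpi0 : ∀ κ : Fin d → K, 0 ≤ ∏ l, P (κ l) := fun κ =>
    Finset.prod_nonneg (fun l _ => hP0 (κ l))
  have hsum : (1 : ℝ) ≤ ∑ f ∈ univ.filter (fun f => 0 < v f), (Real.exp b + Real.exp b) := by
    calc (1 : ℝ) = ∑ κ : Fin d → K, (∏ l, P (κ l)) * 1 := by simp [hpi]
      _ ≤ ∑ κ : Fin d → K, (∏ l, P (κ l)) * ∑ f ∈ univ.filter (fun f => 0 < v f),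
            (Real.exp (ε / 4 * ∑ l, Y f (κ l) + c1)
              + Real.exp (-(ε / 2) * ∑ l, Y f (κ l) + c2)) :=
          Finset.sum_le_sum (fun κ _ => mul_le_mul_of_nonneg_left (hbad κ) (hpi0 κ))
      _ = ∑ f ∈ univ.filter (fun f => 0 < v f),
            (∑ κ : Fin d → K, (∏ l, P (κ l)) * Real.exp (ε / 4 * ∑ l, Y f (κ l) + c1)
              + ∑ κ : Fin d → K, (∏ l, P (κ l))
                  * Real.exp (-(ε / 2) * ∑ l, Y f (κ l) + c2)) := by
          simp only [Finset.mul_sum]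
          rw [Finset.sum_comm]
          apply Finset.sum_congr rfl
          intro f _
          rw [← Finset.sum_add_distrib]
          apply Finset.sum_congr rfl
          intro κ _
          ring
      _ ≤ ∑ f ∈ univ.filter (fun f => 0 < v f), (Real.exp b + Real.exp b) := by
          apply Finset.sum_le_sum
          intro f hf
          have hvf : 0 < v f := (Finset.mem_filter.mp hf).2
          exact add_le_add (htail1 f hvf) (htail2 f hvf)
  -- the count
  have hcount : ∑ f ∈ univ.filter (fun f => 0 < v f), (Real.exp b + Real.exp b)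
      ≤ 2 * (Fintype.card F : ℝ) * Real.exp b := by
    rw [Finset.sum_const, nsmul_eq_mul]
    have h1 : ((univ.filter (fun f => 0 < v f)).card : ℝ) ≤ (Fintype.card F : ℝ) := by
      exact_mod_cast Finset.card_le_univ _
    have h2 := Real.exp_pos b
    nlinarith
  -- the final numerical contradiction
  have hbb : Real.exp b ≤ (2 * (Fintype.card F : ℝ) + 1)⁻¹ := by
    have h1 : Real.log (2 * (Fintype.card F : ℝ) + 1) ≤ ε ^ 2 / 8 * D := by
      simp only [hDdef]
      rw [show ε ^ 2 / 8 * ((d : ℝ) / S) = ε ^ 2 * (d : ℝ) / (8 * S) by field_simp,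
        le_div_iff₀ (by positivity)]
      linarith
    have h2 : b ≤ -Real.log (2 * (Fintype.card F : ℝ) + 1) := by
      simp only [hb]; linarith
    calc Real.exp b ≤ Real.exp (-Real.log (2 * (Fintype.card F : ℝ) + 1)) :=
          Real.exp_le_exp.mpr h2
      _ = (2 * (Fintype.card F : ℝ) + 1)⁻¹ := by
          rw [Real.exp_neg, Real.exp_log (by positivity)]
  have hfin : 2 * (Fintype.card F : ℝ) * (2 * (Fintype.card F : ℝ) + 1)⁻¹ < 1 := by
    rw [← div_eq_mul_inv, div_lt_one (by positivity)]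
    linarith
  have hle : 2 * (Fintype.card F : ℝ) * Real.exp b
      ≤ 2 * (Fintype.card F : ℝ) * (2 * (Fintype.card F : ℝ) + 1)⁻¹ :=
    mul_le_mul_of_nonneg_left hbb (by positivity)
  linarith

end Vale.Agent.Lib.P249
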