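import Mathlib

/-!
P249: the pair-sensitivity bound (A) for finite point sets in `ℓ_q^m`
(independent proof; Mathlib only).
-/

namespace Vale.Agent.Lib.P249.H4

open Finset

/-- a doubling scale exists among the first `M + 1` scales -/
theorem exists_doubling (g : ℕ → ℕ) (n M : ℕ) (hg0 : 1 ≤ g 0) (hgn : ∀ μ, g μ ≤ n)
    (hM : n < 2 ^ (M + 1)) : ∃ μ, μ ≤ M ∧ g (μ + 1) ≤ 2 * g μ := by
  by_contra h
  push Not at h
  have key : ∀ μ, μ ≤ M + 1 → 2 ^ μ ≤ g μ := by
    intro μ
    induction μ with
    | zero => intro _; simpa using hg0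
    | succ μ ih =>
      intro hμ
      have h1 := ih (by omega)
      have h2 := h μ (by omega)
      rw [pow_succ]
      omega
  have h3 := key (M + 1) le_rfl
  have h4 := hgn (M + 1)
  omega

section abstract

variable {ι : Type*} [Fintype ι] [DecidableEq ι]

/-- lower bound of a nonnegative double sum by selected terms -/
theorem sum_lower (t : ι → ι → ℝ) (ht : ∀ a b, 0 ≤ t a b) (i j : ι) (hij : i ≠ j)
    (B : Finset ι) (hjB : j ∉ B) :
    t i j + ∑ l ∈ B, (t i l + t j l) ≤ ∑ a, ∑ b, t a b := by
  have h1 : ∑ b, t i b + ∑ b, t j b ≤ ∑ a, ∑ b, t a b := by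
    have := Finset.sum_le_sum_of_subset_of_nonneg (f := fun a => ∑ b, t a b)
      (Finset.subset_univ ({i, j} : Finset ι))
      (fun a _ _ => Finset.sum_nonneg (fun b _ => ht a b))
    rwa [Finset.sum_pair hij] at this
  have h2 : t i j + ∑ l ∈ B, t i l ≤ ∑ b, t i b := by
    have := Finset.sum_le_sum_of_subset_of_nonneg (f := fun b => t i b)
      (Finset.subset_univ (insert j B)) (fun b _ _ => ht i b)
    rwa [Finset.sum_insert hjB] at this
  have h3 : ∑ l ∈ B, t j l ≤ ∑ b, t j b :=
    Finset.sum_le_sum_of_subset_of_nonneg (Finset.subset_univ B) (fun b _ _ => ht j b)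
  rw [Finset.sum_add_distrib]
  linarith

/-- The abstract pair-sensitivity bound: one coordinate weight `w` against a metric `δ`. -/
theorem pair_sens (δ w : ι → ι → ℝ) (q : ℝ) (hq : 1 ≤ q) (M : ℕ)
    (hM : Fintype.card ι < 2 ^ (M + 1))
    (hδ0 : ∀ a, δ a a = 0) (hδn : ∀ a b, 0 ≤ δ a b) (hδs : ∀ a b, δ a b = δ b a)
    (hδt : ∀ a b c, δ a c ≤ δ a b + δ b c)
    (hw0 : ∀ a b, 0 ≤ w a b) (hwv : ∀ a b, w a b ≤ δ a b ^ q)
    (hwt : ∀ i j l, w i j ≤ 2 ^ (q - 1) * (w i l + w j l)) (i j : ι) :
    w i j ≤ (4 * (M : ℝ) + 4) ^ q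
      * (∑ a, ∑ b, (1 / ((univ.filter (fun y => δ a y ≤ δ a b)).card : ℝ))
          * (w a b / δ a b ^ q))
      * δ i j ^ q := by
  have hq0 : 0 < q := by linarith
  -- the center of a ball belongs to it
  have hcen : ∀ a b, 0 < ((univ.filter (fun y => δ a y ≤ δ a b)).card : ℝ) := by
    intro a b
    have : a ∈ univ.filter (fun y => δ a y ≤ δ a b) := by
      simp only [mem_filter, mem_univ, true_and]
      rw [hδ0]; exact hδn a b
    exact_mod_cast Finset.card_pos.mpr ⟨a, this⟩
  set t : ι → ι → ℝ := fun a b =>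
    (1 / ((univ.filter (fun y => δ a y ≤ δ a b)).card : ℝ)) * (w a b / δ a b ^ q) with ht_def
  have ht0 : ∀ a b, 0 ≤ t a b := fun a b =>
    mul_nonneg (one_div_nonneg.mpr (hcen a b).le)
      (div_nonneg (hw0 a b) (Real.rpow_nonneg (hδn a b) q))
  set T : ℝ := ∑ a, ∑ b, t a b with hT_def
  have hT0 : 0 ≤ T := Finset.sum_nonneg (fun a _ => Finset.sum_nonneg (fun b _ => ht0 a b))
  rcases (hδn i j).eq_or_lt with hρ | hρ
  · have h1 : w i j ≤ 0 := by
      have := hwv i j
      rw [← hρ, Real.zero_rpow hq0.ne'] at this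
      exact this
    rw [← hρ, Real.zero_rpow hq0.ne', mul_zero]
    exact h1
  · set ρ : ℝ := δ i j with hρ_def
    have hij : i ≠ j := by
      rintro rfl
      rw [hρ_def, hδ0] at hρ
      exact lt_irrefl _ hρ
    have hρq : 0 < ρ ^ q := Real.rpow_pos_of_pos hρ q
    -- the doubling scale
    obtain ⟨μ, hμM, hdoub⟩ := exists_doubling
      (fun μ => (univ.filter (fun y => δ i y ≤ (2 * (μ : ℝ) + 1) * ρ)).card)
      (Fintype.card ι) M
      (by
        apply Finset.card_pos.mpr
        refine ⟨i, ?_⟩
        simp only [mem_filter, mem_univ, true_and]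
        rw [hδ0]; positivity)
      (fun μ => Finset.card_le_univ _) hM
    set C : ℝ := 2 * (μ : ℝ) + 1 with hC_def
    have hC1 : 1 ≤ C := by
      have : (0 : ℝ) ≤ (μ : ℝ) := Nat.cast_nonneg μ
      linarith
    have hCM : C + 1 ≤ 2 * (M : ℝ) + 2 := by
      have : (μ : ℝ) ≤ (M : ℝ) := by exact_mod_cast hμM
      linarith
    have hC2 : 2 * (((μ + 1 : ℕ) : ℝ)) + 1 = C + 2 := by push_cast; ring
    simp only [hC2] at hdoub
    set B1 : Finset ι := univ.filter (fun y => δ i y ≤ C * ρ) with hB1
    set B3 : Finset ι := univ.filter (fun y => δ i y ≤ (C + 2) * ρ) with hB3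
    have hi1 : i ∈ B1 := by
      simp only [hB1, mem_filter, mem_univ, true_and]
      rw [hδ0]; positivity
    have hj1 : j ∈ B1 := by
      simp only [hB1, mem_filter, mem_univ, true_and]
      nlinarith
    have hn1 : 2 ≤ B1.card := Finset.one_lt_card.mpr ⟨i, hi1, j, hj1, hij⟩
    have hn1R : (2 : ℝ) ≤ (B1.card : ℝ) := by exact_mod_cast hn1
    have hn3 : (B3.card : ℝ) ≤ 2 * (B1.card : ℝ) := by exact_mod_cast hdoub
    have hn3pos : 0 < (B3.card : ℝ) := by
      have : i ∈ B3 := by
        simp only [hB3, mem_filter, mem_univ, true_and]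
        rw [hδ0]; positivity
      exact_mod_cast Finset.card_pos.mpr ⟨i, this⟩
    set B' : Finset ι := (B1.erase i).erase j with hB'
    have hjB' : j ∉ B' := Finset.notMem_erase j _
    have hcardB' : (B'.card : ℝ) = (B1.card : ℝ) - 2 := by
      have hj' : j ∈ B1.erase i := Finset.mem_erase.mpr ⟨hij.symm, hj1⟩
      rw [hB', Finset.card_erase_of_mem hj', Finset.card_erase_of_mem hi1]
      have : B1.card - 1 - 1 = B1.card - 2 := by omega
      rw [this, Nat.cast_sub hn1]
      norm_num
    have hlow := sum_lower t ht0 i j hij B' hjB'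
    -- constants
    set H : ℝ := 2 ^ (q - 1) with hH
    set E : ℝ := (C + 1) ^ q with hE
    have hH1 : 1 ≤ H := Real.one_le_rpow (by norm_num) (by linarith)
    have hE1 : 1 ≤ E := Real.one_le_rpow (by linarith) hq0.le
    have hHpos : 0 < H := by linarith
    have hEpos : 0 < E := by linarith
    set R : ℝ := w i j / ρ ^ q with hR
    have hR0 : 0 ≤ R := div_nonneg (hw0 i j) hρq.le
    have hV : ((C + 1) * ρ) ^ q = E * ρ ^ q := Real.mul_rpow (by linarith) hρ.le
    have hVpos : 0 < ((C + 1) * ρ) ^ q := by rw [hV]; exact mul_pos hEpos hρq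
    -- a pair within distance `(C + 1) ρ`
    have hnear : ∀ a b, δ a b ≤ (C + 1) * ρ → w a b / ((C + 1) * ρ) ^ q ≤ w a b / δ a b ^ q := by
      intro a b hab
      rcases (hδn a b).eq_or_lt with h0 | h0
      · have hz : w a b = 0 := by
          have := hwv a b
          rw [← h0, Real.zero_rpow hq0.ne'] at this
          exact le_antisymm this (hw0 a b)
        rw [hz]; simp
      · exact div_le_div_of_nonneg_left (hw0 a b) (Real.rpow_pos_of_pos h0 q)
          (Real.rpow_le_rpow h0.le hab hq0.le)
    -- the term of the pair itself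
    have hterm0 : (1 / (B1.card : ℝ)) * R ≤ t i j := by
      simp only [ht_def]
      apply mul_le_mul_of_nonneg_right _ hR0
      apply one_div_le_one_div_of_le (hcen i j)
      have hsub : univ.filter (fun y => δ i y ≤ δ i j) ⊆ B1 := by
        intro y hy
        simp only [hB1, mem_filter, mem_univ, true_and] at hy ⊢
        nlinarith
      exact_mod_cast Finset.card_le_card hsub
    -- the terms of the third points
    have hterm : ∀ l ∈ B', (1 / (B3.card : ℝ)) * (R / (H * E)) ≤ t i l + t j l := by
      intro l hl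
      have hl1 : l ∈ B1 := Finset.mem_of_mem_erase (Finset.mem_of_mem_erase hl)
      have hil : δ i l ≤ C * ρ := by
        simpa only [hB1, mem_filter, mem_univ, true_and] using hl1
      have hjl : δ j l ≤ (C + 1) * ρ := by
        have h1 := hδt j i l
        have h2 : δ j i = ρ := hδs j i
        linarith
      have hil' : δ i l ≤ (C + 1) * ρ := by nlinarith
      have hc1 : ((univ.filter (fun y => δ i y ≤ δ i l)).card : ℝ) ≤ (B3.card : ℝ) := by
        have hsub : univ.filter (fun y => δ i y ≤ δ i l) ⊆ B3 := by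
          intro y hy
          simp only [hB3, mem_filter, mem_univ, true_and] at hy ⊢
          nlinarith
        exact_mod_cast Finset.card_le_card hsub
      have hc2 : ((univ.filter (fun y => δ j y ≤ δ j l)).card : ℝ) ≤ (B3.card : ℝ) := by
        have hsub : univ.filter (fun y => δ j y ≤ δ j l) ⊆ B3 := by
          intro y hy
          simp only [hB3, mem_filter, mem_univ, true_and] at hy ⊢
          have h1 := hδt i j y
          linarith
        exact_mod_cast Finset.card_le_card hsub
      have ht1 : (1 / (B3.card : ℝ)) * (w i l / ((C + 1) * ρ) ^ q) ≤ t i l := by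
        simp only [ht_def]
        exact mul_le_mul (one_div_le_one_div_of_le (hcen i l) hc1) (hnear i l hil')
          (div_nonneg (hw0 i l) hVpos.le) (one_div_nonneg.mpr (hcen i l).le)
      have ht2 : (1 / (B3.card : ℝ)) * (w j l / ((C + 1) * ρ) ^ q) ≤ t j l := by
        simp only [ht_def]
        exact mul_le_mul (one_div_le_one_div_of_le (hcen j l) hc2) (hnear j l hjl)
          (div_nonneg (hw0 j l) hVpos.le) (one_div_nonneg.mpr (hcen j l).le)
      have h3 : R / (H * E) ≤ w i l / ((C + 1) * ρ) ^ q + w j l / ((C + 1) * ρ) ^ q := by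
        rw [← add_div, hV, hR]
        have h4 : w i j / H ≤ w i l + w j l := by
          rw [div_le_iff₀ hHpos]
          have := hwt i j l
          linarith
        have e : w i j / ρ ^ q / (H * E) = w i j / H / (E * ρ ^ q) := by
          field_simp
        rw [e]
        exact div_le_div_of_nonneg_right h4 (mul_pos hEpos hρq).le
      have h5 := mul_le_mul_of_nonneg_left h3 (one_div_nonneg.mpr hn3pos.le)
      rw [mul_add] at h5
      linarith
    -- summing up
    have hsumB : (B'.card : ℝ) * ((1 / (B3.card : ℝ)) * (R / (H * E)))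
        ≤ ∑ l ∈ B', (t i l + t j l) := by
      have := Finset.sum_le_sum hterm
      rwa [Finset.sum_const, nsmul_eq_mul] at this
    have hHE : 0 < H * E := mul_pos hHpos hEpos
    have hx0 : 0 ≤ R / (H * E) := div_nonneg hR0 hHE.le
    have hxR : R / (H * E) ≤ R := by
      apply div_le_self hR0
      nlinarith
    have hkey : R / (H * E) / 2 ≤ T := by
      have h1 : (1 / (B1.card : ℝ)) * (R / (H * E)) ≤ (1 / (B1.card : ℝ)) * R :=
        mul_le_mul_of_nonneg_left hxR (one_div_nonneg.mpr (by linarith))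
      have h2 : 1 / (2 * (B1.card : ℝ)) ≤ 1 / (B3.card : ℝ) :=
        one_div_le_one_div_of_le hn3pos hn3
      have h3 : ((B1.card : ℝ) - 2) * ((1 / (2 * (B1.card : ℝ))) * (R / (H * E)))
          ≤ ((B1.card : ℝ) - 2) * ((1 / (B3.card : ℝ)) * (R / (H * E))) :=
        mul_le_mul_of_nonneg_left (mul_le_mul_of_nonneg_right h2 hx0) (by linarith)
      have e : (1 / (B1.card : ℝ)) * (R / (H * E))
          + ((B1.card : ℝ) - 2) * ((1 / (2 * (B1.card : ℝ))) * (R / (H * E)))
          = R / (H * E) / 2 := by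
        have hne : (B1.card : ℝ) ≠ 0 := by linarith
        field_simp
        ring
      rw [hcardB'] at hsumB
      linarith
    -- back to `w i j`
    have hRT : R ≤ 2 * H * E * T := by
      have : R / (H * E) ≤ 2 * T := by linarith
      rw [div_le_iff₀ hHE] at this
      linarith
    have hconst : 2 * H * E ≤ (4 * (M : ℝ) + 4) ^ q := by
      have e1 : 2 * H = (2 : ℝ) ^ q := by
        rw [hH, mul_comm, ← Real.rpow_add_one (by norm_num) (q - 1)]
        congr 1
        ring
      have e2 : (2 : ℝ) ^ q * E = (2 * (C + 1)) ^ q := by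
        rw [hE, ← Real.mul_rpow (by norm_num) (by linarith)]
      rw [e1, e2]
      exact Real.rpow_le_rpow (by linarith) (by linarith) hq0.le
    have hwR : w i j = R * ρ ^ q := by
      rw [hR]; field_simp
    rw [hwR]
    have h6 : R ≤ (4 * (M : ℝ) + 4) ^ q * T := by
      have := mul_le_mul_of_nonneg_right hconst hT0
      linarith
    exact mul_le_mul_of_nonneg_right h6 hρq.le

end abstract

/-- the rank sum over a finite set is at most a harmonic sum -/
theorem rank_sum_finset {ι : Type*} [DecidableEq ι] (f : ι → ℝ) :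
    ∀ (n : ℕ) (S : Finset ι), S.card = n →
      ∑ b ∈ S, (1 : ℝ) / ((S.filter (fun y => f y ≤ f b)).card : ℝ)
        ≤ ∑ t ∈ range n, 1 / ((t : ℝ) + 1) := by
  intro n
  induction n with
  | zero =>
    intro S hS
    rw [Finset.card_eq_zero] at hS
    subst hS
    simp
  | succ n ih =>
    intro S hS
    have hne : S.Nonempty := by
      rw [← Finset.card_pos]; omega
    obtain ⟨m, hm, hmax⟩ := S.exists_max_image f hne
    have hcard : (S.erase m).card = n := by
      rw [Finset.card_erase_of_mem hm, hS]; rfl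
    have ih' := ih (S.erase m) hcard
    rw [Finset.sum_range_succ, ← Finset.add_sum_erase S _ hm]
    have h1 : (1 : ℝ) / ((S.filter (fun y => f y ≤ f m)).card : ℝ) = 1 / ((n : ℝ) + 1) := by
      have hfil : S.filter (fun y => f y ≤ f m) = S := by
        apply Finset.filter_true_of_mem
        intro y hy
        exact hmax y hy
      rw [hfil, hS]
      push_cast
      ring
    rw [h1, add_comm]
    have h2 : ∑ b ∈ S.erase m, (1 : ℝ) / ((S.filter (fun y => f y ≤ f b)).card : ℝ)
        ≤ ∑ t ∈ range n, 1 / ((t : ℝ) + 1) := by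
      refine le_trans (Finset.sum_le_sum ?_) ih'
      intro b hb
      have hb' : b ∈ (S.erase m).filter (fun y => f y ≤ f b) := by
        rw [Finset.mem_filter]
        exact ⟨hb, le_refl _⟩
      have hpos : 0 < (((S.erase m).filter (fun y => f y ≤ f b)).card : ℝ) := by
        exact_mod_cast Finset.card_pos.mpr ⟨b, hb'⟩
      apply one_div_le_one_div_of_le hpos
      exact_mod_cast Finset.card_le_card
        (Finset.filter_subset_filter _ (Finset.erase_subset m S))
    linarith

/-- the rank sum is at most `1 + log n` -/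
theorem rank_sum_le_log {ι : Type*} [Fintype ι] [DecidableEq ι] (f : ι → ℝ) :
    ∑ b, (1 : ℝ) / ((univ.filter (fun y => f y ≤ f b)).card : ℝ)
      ≤ 1 + Real.log (Fintype.card ι) := by
  refine (rank_sum_finset f (Fintype.card ι) univ Finset.card_univ).trans ?_
  have h := harmonic_le_one_add_log (Fintype.card ι)
  have h2 : ∑ t ∈ range (Fintype.card ι), 1 / ((t : ℝ) + 1)
      = ((harmonic (Fintype.card ι) : ℚ) : ℝ) := by
    unfold harmonic
    push_cast
    apply Finset.sum_congr rfl
    intro t _
    rw [one_div]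
  rw [h2]
  exact h

/-- two-point convexity of `t ^ p` -/
theorem add_rpow_le (a b : ℝ) (ha : 0 ≤ a) (hb : 0 ≤ b) {p : ℝ} (hp : 1 ≤ p) :
    (a + b) ^ p ≤ 2 ^ (p - 1) * (a ^ p + b ^ p) := by
  have h := NNReal.rpow_add_le_mul_rpow_add_rpow ⟨a, ha⟩ ⟨b, hb⟩ hp
  exact_mod_cast h

end Vale.Agent.Lib.P249.H4
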