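import Mathlib
import Vale.Agent.Lib.P249.helper4.SensCore

/-!
P249: the pair-sensitivity bound (A) for `n` points of `ℝ^m` with the `q`-th power
distance, `q ≥ 1`, with the explicit constant `3 * 12 ^ q`.
-/

namespace Vale.Agent.Lib.P249.H4

open Finset

/-- The pair-sensitivity bound (A) with the constant `3 * 12 ^ q`. -/
theorem sens (q : ℝ) (hq : 1 ≤ q) (n m : ℕ) (hn : 2 ≤ n) (x : Fin n → Fin m → ℝ) :
    ∃ s : Fin m → ℝ, (∀ k, 0 ≤ s k) ∧
      (∀ k a b, |x a k - x b k| ^ q ≤ s k * ∑ k', |x a k' - x b k'| ^ q) ∧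
      ∑ k, s k ≤ 3 * 12 ^ q * n * Real.log n ^ (q + 1) := by
  have hq0 : 0 < q := by linarith
  -- the distance
  set v : Fin n → Fin n → ℝ := fun a b => ∑ k', |x a k' - x b k'| ^ q with hv_def
  have hv0 : ∀ a b, 0 ≤ v a b := fun a b =>
    Finset.sum_nonneg (fun k _ => Real.rpow_nonneg (abs_nonneg _) q)
  set δ : Fin n → Fin n → ℝ := fun a b => (v a b) ^ (1 / q) with hδ_def
  have hδn : ∀ a b, 0 ≤ δ a b := fun a b => Real.rpow_nonneg (hv0 a b) _
  have hδq : ∀ a b, δ a b ^ q = v a b := fun a b => by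
    simp only [hδ_def]
    rw [← Real.rpow_mul (hv0 a b), one_div, inv_mul_cancel₀ hq0.ne', Real.rpow_one]
  have hδ0 : ∀ a, δ a a = 0 := fun a => by
    simp only [hδ_def, hv_def, sub_self, abs_zero, Real.zero_rpow hq0.ne',
      Finset.sum_const_zero]
    exact Real.zero_rpow (by positivity)
  have hδs : ∀ a b, δ a b = δ b a := fun a b => by
    simp only [hδ_def, hv_def]
    congr 1
    apply Finset.sum_congr rfl
    intro k _
    rw [abs_sub_comm]
  have hδt : ∀ a b c, δ a c ≤ δ a b + δ b c := fun a b c => by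
    have h := Real.Lp_add_le univ (fun k => x a k - x b k) (fun k => x b k - x c k) hq
    simp only [sub_add_sub_cancel] at h
    exact h
  -- the number of scales
  set M : ℕ := Nat.log 2 n with hM_def
  have hM : Fintype.card (Fin n) < 2 ^ (M + 1) := by
    rw [Fintype.card_fin]
    exact Nat.lt_pow_succ_log_self (by norm_num) n
  -- the coordinate weights
  set w : Fin m → Fin n → Fin n → ℝ := fun k a b => |x a k - x b k| ^ q with hw_def
  have hw0 : ∀ k a b, 0 ≤ w k a b := fun k a b => Real.rpow_nonneg (abs_nonneg _) q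
  have hwv : ∀ k a b, w k a b ≤ δ a b ^ q := fun k a b => by
    rw [hδq]
    exact Finset.single_le_sum (f := fun k' => |x a k' - x b k'| ^ q)
      (fun k' _ => Real.rpow_nonneg (abs_nonneg _) q) (Finset.mem_univ k)
  have hwt : ∀ k i j l, w k i j ≤ 2 ^ (q - 1) * (w k i l + w k j l) := fun k i j l => by
    have h1 : |x i k - x j k| ≤ |x i k - x l k| + |x j k - x l k| := by
      have := abs_sub_le (x i k) (x l k) (x j k)
      rw [abs_sub_comm (x l k) (x j k)] at this
      exact this
    exact le_trans (Real.rpow_le_rpow (abs_nonneg _) h1 hq0.le)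
      (add_rpow_le _ _ (abs_nonneg _) (abs_nonneg _) hq)
  -- the sensitivities
  set T : Fin m → ℝ := fun k => ∑ a, ∑ b,
    (1 / ((univ.filter (fun y => δ a y ≤ δ a b)).card : ℝ)) * (w k a b / δ a b ^ q) with hT_def
  have hT0 : ∀ k, 0 ≤ T k := fun k =>
    Finset.sum_nonneg (fun a _ => Finset.sum_nonneg (fun b _ =>
      mul_nonneg (one_div_nonneg.mpr (Nat.cast_nonneg _))
        (div_nonneg (hw0 k a b) (Real.rpow_nonneg (hδn a b) q))))
  have hc0 : 0 ≤ (4 * (M : ℝ) + 4) ^ q := Real.rpow_nonneg (by positivity) q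
  refine ⟨fun k => (4 * (M : ℝ) + 4) ^ q * T k, fun k => mul_nonneg hc0 (hT0 k), ?_, ?_⟩
  · intro k a b
    have h := pair_sens δ (w k) q hq M hM hδ0 hδn hδs hδt (hw0 k) (hwv k) (hwt k) a b
    have e := hδq a b
    calc |x a k - x b k| ^ q ≤ (4 * (M : ℝ) + 4) ^ q * T k * δ a b ^ q := h
      _ = (4 * (M : ℝ) + 4) ^ q * T k * ∑ k', |x a k' - x b k'| ^ q := by rw [e]
  · -- the total
    have hsumT : ∑ k, T k ≤ (n : ℝ) * (1 + Real.log n) := by
      have h1 : ∑ k, T k = ∑ a, ∑ b,
          (1 / ((univ.filter (fun y => δ a y ≤ δ a b)).card : ℝ)) * (v a b / δ a b ^ q) := by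
        simp only [hT_def]
        rw [Finset.sum_comm]
        apply Finset.sum_congr rfl
        intro a _
        rw [Finset.sum_comm]
        apply Finset.sum_congr rfl
        intro b _
        rw [← Finset.mul_sum, ← Finset.sum_div]
      rw [h1]
      have h2 : ∀ a, ∑ b,
          (1 / ((univ.filter (fun y => δ a y ≤ δ a b)).card : ℝ)) * (v a b / δ a b ^ q)
          ≤ 1 + Real.log n := by
        intro a
        have h3 := rank_sum_le_log (fun y => δ a y)
        rw [Fintype.card_fin] at h3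
        refine le_trans (Finset.sum_le_sum ?_) h3
        intro b _
        rw [hδq]
        have h4 : v a b / v a b ≤ 1 := div_self_le_one _
        have h5 : (0 : ℝ) ≤ 1 / ((univ.filter (fun y => δ a y ≤ δ a b)).card : ℝ) :=
          one_div_nonneg.mpr (Nat.cast_nonneg _)
        have := mul_le_mul_of_nonneg_left h4 h5
        rwa [mul_one] at this
      have := Finset.sum_le_sum (fun a (_ : a ∈ (univ : Finset (Fin n))) => h2 a)
      rwa [Finset.sum_const, Finset.card_univ, Fintype.card_fin, nsmul_eq_mul] at this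
    -- numerics
    have hn0 : n ≠ 0 := by omega
    have hnR : (2 : ℝ) ≤ (n : ℝ) := by exact_mod_cast hn
    have hl2 : (0.69 : ℝ) < Real.log 2 := by
      have := Real.log_two_gt_d9
      linarith
    have hL : Real.log 2 ≤ Real.log n := Real.log_le_log (by norm_num) hnR
    have hML : (M : ℝ) * Real.log 2 ≤ Real.log n := by
      have h1 : (2 : ℝ) ^ M ≤ (n : ℝ) := by
        exact_mod_cast Nat.pow_log_le_self 2 hn0
      have h2 := Real.log_le_log (by positivity) h1
      rwa [Real.log_pow] at h2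
    have hM12 : 4 * (M : ℝ) + 4 ≤ 12 * Real.log n := by
      have hpos : 0 < Real.log 2 := by linarith
      have : (4 * (M : ℝ) + 4) * Real.log 2 ≤ 12 * Real.log n * Real.log 2 := by nlinarith
      exact le_of_mul_le_mul_right this hpos
    have hLpos : 0 < Real.log n := by linarith
    have hpow : (4 * (M : ℝ) + 4) ^ q ≤ 12 ^ q * Real.log n ^ q := by
      rw [← Real.mul_rpow (by norm_num) hLpos.le]
      exact Real.rpow_le_rpow (by positivity) hM12 hq0.le
    have h1L : 1 + Real.log n ≤ 3 * Real.log n := by linarith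
    have hLq : Real.log n ^ (q + 1) = Real.log n ^ q * Real.log n :=
      Real.rpow_add_one hLpos.ne' q
    have h12 : (0 : ℝ) ≤ 12 ^ q := Real.rpow_nonneg (by norm_num) q
    have hLq0 : 0 ≤ Real.log n ^ q := Real.rpow_nonneg hLpos.le q
    rw [← Finset.mul_sum, hLq]
    have hsT0 : 0 ≤ ∑ k, T k := Finset.sum_nonneg (fun k _ => hT0 k)
    calc (4 * (M : ℝ) + 4) ^ q * ∑ k, T k
        ≤ (12 ^ q * Real.log n ^ q) * ((n : ℝ) * (3 * Real.log n)) := by
          apply mul_le_mul hpow _ hsT0 (mul_nonneg h12 hLq0)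
          exact le_trans hsumT (mul_le_mul_of_nonneg_left h1L (by positivity))
      _ = 3 * 12 ^ q * n * (Real.log n ^ q * Real.log n) := by ring

end Vale.Agent.Lib.P249.H4
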