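import Mathlib
import Vale.Agent.Lib.P249.helper4.Sensitivity
import Vale.Agent.Lib.P249.helper4.Sampling
import Vale.Agent.Lib.P249.helper75.Assemble

/-!
P249: near-linear dimension reduction in `ℓ_p` for every finite `p ≥ 1`
(assembly of the pair-sensitivity bound, the sampling lemma and the `PiLp` glue).
-/

namespace Vale.Agent.Lib.P249.H4

open Finset

/-- Every `n`-point subset of `ℓ_p^m` embeds with distortion at most `D` into `ℓ_p^d`
with `d ≤ C n (log n)^(p+2)`, for every `1 ≤ p < ∞` and `D > 1`. -/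
theorem near_linear (p : ENNReal) [Fact (1 ≤ p)] (hp : p ≠ ⊤) (D : ℝ) (hD : 1 < D) :
    ∃ C : ℝ, ∀ (n m : ℕ), 2 ≤ n → ∀ x : Fin n → PiLp p (fun _ : Fin m => ℝ),
      ∃ (d : ℕ) (y : Fin n → PiLp p (fun _ : Fin d => ℝ)),
        (d : ℝ) ≤ C * n * Real.log n ^ (p.toReal + 2) ∧
        ∀ i j, dist (x i) (x j) ≤ dist (y i) (y j) ∧
          dist (y i) (y j) ≤ D * dist (x i) (x j) := by
  have hp1 : (1 : ENNReal) ≤ p := Fact.out
  have hq1 : 1 ≤ p.toReal := by
    have := ENNReal.toReal_mono hp hp1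
    simpa using this
  exact Vale.Agent.Lib.P249.H75.assemble p hp D hD (3 * 12 ^ p.toReal)
    (fun n m hn x => sens p.toReal hq1 n m hn x)
    (fun _ _ _ _ w s v S hw hv hs0 hs hS hSpos ε hε hε1 d hd =>
      Vale.Agent.Lib.P249.sampling w s v S hw hv hs0 hs hS hSpos ε hε hε1 d hd)

end Vale.Agent.Lib.P249.H4
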